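import Mathlib

/-!
# P207, all dimensions (the line N4): the dimension as an instance

`Dim.m` is the dimension of the unstable leaves, the manifold has dimension `Dim.m + 1`.
-/

namespace Vale.Agent.P207.H248
end Vale.Agent.P207.H248
namespace Vale.Agent.P207.H662
end Vale.Agent.P207.H662
namespace Vale.Agent.P207.H662.Sant
end Vale.Agent.P207.H662.Sant
namespace Vale.Agent.P207.N3
end Vale.Agent.P207.N3
namespace Vale.Agent.P207.N3.H156
end Vale.Agent.P207.N3.H156
namespace Vale.Agent.P207.N3.H158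
end Vale.Agent.P207.N3.H158
namespace Vale.Agent.P207.N3.H265
end Vale.Agent.P207.N3.H265
namespace Vale.Agent.P207.N3.H306
end Vale.Agent.P207.N3.H306
namespace Vale.Agent.P207.N3.H348
end Vale.Agent.P207.N3.H348
namespace Vale.Agent.P207.N3.H395
end Vale.Agent.P207.N3.H395
namespace Vale.Agent.P207.N3.H440
end Vale.Agent.P207.N3.H440
namespace Vale.Agent.P207.N3.H459
end Vale.Agent.P207.N3.H459
namespace Vale.Agent.P207.N3.H460
end Vale.Agent.P207.N3.H460
namespace Vale.Agent.P207.N3.H465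
end Vale.Agent.P207.N3.H465
namespace Vale.Agent.P207.N3.H546
end Vale.Agent.P207.N3.H546
namespace Vale.Agent.P207.N3.H566
end Vale.Agent.P207.N3.H566
namespace Vale.Agent.P207.N3.H607
end Vale.Agent.P207.N3.H607
namespace Vale.Agent.P207.N3.H618
end Vale.Agent.P207.N3.H618
namespace Vale.Agent.P207.N3.H646
end Vale.Agent.P207.N3.H646
namespace Vale.Agent.P207.N3.H662
end Vale.Agent.P207.N3.H662
namespace Vale.Agent.P207.N3.H686
end Vale.Agent.P207.N3.H686
namespace Vale.Agent.P207.N3.H709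
end Vale.Agent.P207.N3.H709
namespace Vale.Agent.P207.N3.H722
end Vale.Agent.P207.N3.H722
namespace Vale.Agent.P207.N3.H728
end Vale.Agent.P207.N3.H728
namespace Vale.Agent.P207.N3.H728.Had
end Vale.Agent.P207.N3.H728.Had
namespace Vale.Agent.P207.N3.H732
end Vale.Agent.P207.N3.H732
namespace Vale.Agent.P207.N3.H747
end Vale.Agent.P207.N3.H747
namespace Vale.Agent.P207.N3.H76
end Vale.Agent.P207.N3.H76
namespace Vale.Agent.P207.N3.H76.Geo
end Vale.Agent.P207.N3.H76.Geo
namespace Vale.Agent.P207.N3.H790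
end Vale.Agent.P207.N3.H790
namespace Vale.Agent.P207.N3.H803
end Vale.Agent.P207.N3.H803
namespace Vale.Agent.P207.N3.H824
end Vale.Agent.P207.N3.H824
namespace Vale.Agent.P207.N3.H863
end Vale.Agent.P207.N3.H863
namespace Vale.Agent.P207.N3.H908
end Vale.Agent.P207.N3.H908
namespace Vale.Agent.P207.N3.Ten
end Vale.Agent.P207.N3.Ten
namespace Vale.Agent.P207.Q
end Vale.Agent.P207.Q
namespace Vale.Agent.P207.Q.H129
end Vale.Agent.P207.Q.H129
namespace Vale.Agent.P207.Q.H130
end Vale.Agent.P207.Q.H130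
namespace Vale.Agent.P207.Q.H183
end Vale.Agent.P207.Q.H183
namespace Vale.Agent.P207.Q.H222
end Vale.Agent.P207.Q.H222
namespace Vale.Agent.P207.Q.H413
end Vale.Agent.P207.Q.H413
namespace Vale.Agent.P207.Q.H471
end Vale.Agent.P207.Q.H471
namespace Vale.Agent.P207.Q.H545
end Vale.Agent.P207.Q.H545
namespace Vale.Agent.P207.Q.H717
end Vale.Agent.P207.Q.H717
namespace Vale.Agent.P207.Q.H743
end Vale.Agent.P207.Q.H743
namespace Vale.Agent.P207.Q.H791
end Vale.Agent.P207.Q.H791
namespace Vale.Agent.P207.Q.H858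
end Vale.Agent.P207.Q.H858
namespace Vale.Agent.P207.Q.H892
end Vale.Agent.P207.Q.H892
namespace Vale.Agent.P207.Q.Trans
end Vale.Agent.P207.Q.Trans
namespace Vale.Agent.P207.Q.WD
end Vale.Agent.P207.Q.WD
namespace Vale.Agent.P207.N4
end Vale.Agent.P207.N4
namespace Vale.Agent.P207.N4.H156
end Vale.Agent.P207.N4.H156
namespace Vale.Agent.P207.N4.H158
end Vale.Agent.P207.N4.H158
namespace Vale.Agent.P207.N4.H248
end Vale.Agent.P207.N4.H248
namespace Vale.Agent.P207.N4.H265
end Vale.Agent.P207.N4.H265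
namespace Vale.Agent.P207.N4.H306
end Vale.Agent.P207.N4.H306
namespace Vale.Agent.P207.N4.H348
end Vale.Agent.P207.N4.H348
namespace Vale.Agent.P207.N4.H395
end Vale.Agent.P207.N4.H395
namespace Vale.Agent.P207.N4.H440
end Vale.Agent.P207.N4.H440
namespace Vale.Agent.P207.N4.H459
end Vale.Agent.P207.N4.H459
namespace Vale.Agent.P207.N4.H460
end Vale.Agent.P207.N4.H460
namespace Vale.Agent.P207.N4.H465
end Vale.Agent.P207.N4.H465
namespace Vale.Agent.P207.N4.H546
end Vale.Agent.P207.N4.H546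
namespace Vale.Agent.P207.N4.H566
end Vale.Agent.P207.N4.H566
namespace Vale.Agent.P207.N4.H607
end Vale.Agent.P207.N4.H607
namespace Vale.Agent.P207.N4.H618
end Vale.Agent.P207.N4.H618
namespace Vale.Agent.P207.N4.H646
end Vale.Agent.P207.N4.H646
namespace Vale.Agent.P207.N4.H662
end Vale.Agent.P207.N4.H662
namespace Vale.Agent.P207.N4.H662.Sant
end Vale.Agent.P207.N4.H662.Sant
namespace Vale.Agent.P207.N4.H686
end Vale.Agent.P207.N4.H686
namespace Vale.Agent.P207.N4.H709
end Vale.Agent.P207.N4.H709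
namespace Vale.Agent.P207.N4.H722
end Vale.Agent.P207.N4.H722
namespace Vale.Agent.P207.N4.H728
end Vale.Agent.P207.N4.H728
namespace Vale.Agent.P207.N4.H728.Had
end Vale.Agent.P207.N4.H728.Had
namespace Vale.Agent.P207.N4.H732
end Vale.Agent.P207.N4.H732
namespace Vale.Agent.P207.N4.H747
end Vale.Agent.P207.N4.H747
namespace Vale.Agent.P207.N4.H76
end Vale.Agent.P207.N4.H76
namespace Vale.Agent.P207.N4.H76.Geo
end Vale.Agent.P207.N4.H76.Geo
namespace Vale.Agent.P207.N4.H790
end Vale.Agent.P207.N4.H790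
namespace Vale.Agent.P207.N4.H803
end Vale.Agent.P207.N4.H803
namespace Vale.Agent.P207.N4.H824
end Vale.Agent.P207.N4.H824
namespace Vale.Agent.P207.N4.H863
end Vale.Agent.P207.N4.H863
namespace Vale.Agent.P207.N4.H908
end Vale.Agent.P207.N4.H908
namespace Vale.Agent.P207.N4.Q
end Vale.Agent.P207.N4.Q
namespace Vale.Agent.P207.N4.Q.H129
end Vale.Agent.P207.N4.Q.H129
namespace Vale.Agent.P207.N4.Q.H130
end Vale.Agent.P207.N4.Q.H130
namespace Vale.Agent.P207.N4.Q.H183
end Vale.Agent.P207.N4.Q.H183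
namespace Vale.Agent.P207.N4.Q.H222
end Vale.Agent.P207.N4.Q.H222
namespace Vale.Agent.P207.N4.Q.H413
end Vale.Agent.P207.N4.Q.H413
namespace Vale.Agent.P207.N4.Q.H471
end Vale.Agent.P207.N4.Q.H471
namespace Vale.Agent.P207.N4.Q.H545
end Vale.Agent.P207.N4.Q.H545
namespace Vale.Agent.P207.N4.Q.H717
end Vale.Agent.P207.N4.Q.H717
namespace Vale.Agent.P207.N4.Q.H743
end Vale.Agent.P207.N4.Q.H743
namespace Vale.Agent.P207.N4.Q.H791
end Vale.Agent.P207.N4.Q.H791
namespace Vale.Agent.P207.N4.Q.H858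
end Vale.Agent.P207.N4.Q.H858
namespace Vale.Agent.P207.N4.Q.H892
end Vale.Agent.P207.N4.Q.H892
namespace Vale.Agent.P207.N4.Q.Trans
end Vale.Agent.P207.N4.Q.Trans
namespace Vale.Agent.P207.N4.Q.WD
end Vale.Agent.P207.N4.Q.WD
namespace Vale.Agent.P207.N4.Ten
end Vale.Agent.P207.N4.Ten

namespace Vale.Agent.P207.N4

/-- the dimension `m ≥ 2` of the unstable leaves -/
class Dim where
  m : ℕ
  two_le : 2 ≤ m

instance instNeZeroDim [Dim] : NeZero Dim.m := ⟨by have := Dim.two_le; omega⟩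

instance instNontrivialFinDim [Dim] : Nontrivial (Fin Dim.m) :=
  Fin.nontrivial_iff_two_le.2 Dim.two_le

end Vale.Agent.P207.N4
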